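import Vale.Agent.P359W29.F

/-!
P359, question Q1 (the Laughlin spectral gap conjecture on the sphere) in the wording of the
problem: `U_Q` is the representation of the group `SU(2)` on the homogeneous polynomials of degree
`Q`, with an invariant inner product; `P` is the orthogonal projection of `U_Q ⊗ U_Q` onto the
subrepresentation equivalent to `U_{2 (Q - 1)}`; `H = ∑_{i<j} P_{ij}` acts on the exterior power
inside the tensor power. The definitions are in `Vale/Agent/P359W29/Defs.lean`.
-/

namespace Vale.Agent.Results.P359.AAGroupForm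

open Vale.Agent.P359W29

/-- (1) `U_Q` is irreducible. (2) Antisymmetrization embeds `⋀^N U_Q` in the tensor power, and a
tensor is determined by its polynomial. (3) For `Q ≥ 1` the objects that define `H_{N,Q}` exist; the
component of total spin `Q - 1` and `H` are unique, the invariant inner product is unique up to a
positive factor, and `H` preserves `⋀^N U_Q`. (4) At `Q = 3 (N - 1)` the Laughlin vector is a
nonzero vector of `⋀^N U_Q` that spans the kernel of `H`. (5) Q1 in both forms, with one `δ > 0` for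
all `N ≥ 2`. (6) The same with every `δ < 1/50` for all large `N`. -/
theorem result :
    (∀ Q, (rep Q).IsIrreducible) ∧
    (∀ N Q, AntiInj N (U Q) ∧ Function.Injective (toPoly N Q)) ∧
    (∀ N Q, 1 ≤ Q → Nonempty (Model N Q) ∧ WellDefined N (rep Q) (rep (2 * (Q - 1)))) ∧
    (∀ N, 2 ≤ N → ∃ ΨL, toPoly N (3 * (N - 1)) ΨL = laughlinPol N ∧
      ∀ M : Model N (3 * (N - 1)), M.SpansKer ΨL) ∧
    (∃ δ : ℝ, 0 < δ ∧ ∀ N, 2 ≤ N → ∀ (M : Model N (3 * (N - 1))) ΨL,
      toPoly N _ ΨL = laughlinPol N → M.Gap ΨL δ ∧ M.LevelGap δ) ∧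
    ∀ δ : ℝ, δ < 1 / 50 → ∃ N₀, ∀ N, N₀ ≤ N → ∀ (M : Model N (3 * (N - 1))) ΨL,
      toPoly N _ ΨL = laughlinPol N → M.Gap ΨL δ ∧ M.LevelGap δ :=
  main

end Vale.Agent.Results.P359.AAGroupForm
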